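import Mathlib

namespace Vale.P302

open Finset

/-- A bin packing instance: a finite list of rational item sizes in `(0,1]`. -/
structure Instance where
  n : ℕ
  a : Fin n → ℚ
  pos : ∀ i, 0 < a i
  le_one : ∀ i, a i ≤ 1

/-- The items can be partitioned into `m` bins, each of total size at most `1`. -/
def Packs (I : Instance) (m : ℕ) : Prop :=
  ∃ f : Fin I.n → Fin m, ∀ b : Fin m, ∑ i ∈ univ.filter (fun i => f i = b), I.a i ≤ 1

/-- The least number of bins. -/
noncomputable def OPT (I : Instance) : ℕ := sInf {m | Packs I m}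

/-- The set of distinct sizes. -/
def sizes (I : Instance) : Finset ℚ := univ.image I.a

/-- The multiplicity of a size. -/
def mult (I : Instance) (σ : ℚ) : ℕ := (univ.filter (fun i => I.a i = σ)).card

/-- A configuration (only the values of `c` on `sizes I` matter). -/
def IsConfig (I : Instance) (c : ℚ → ℕ) : Prop := ∑ σ ∈ sizes I, σ * (c σ : ℚ) ≤ 1

/-- Objective values of feasible solutions of the configuration LP: finitely many
configurations `c j` with weights `z j ≥ 0` covering every size at least its multiplicity. -/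
def lpValues (I : Instance) : Set ℝ :=
  {v | ∃ (k : ℕ) (c : Fin k → (ℚ → ℕ)) (z : Fin k → ℝ),
    (∀ j, IsConfig I (c j)) ∧ (∀ j, 0 ≤ z j) ∧
    (∀ σ ∈ sizes I, (mult I σ : ℝ) ≤ ∑ j, (c j σ : ℝ) * z j) ∧ v = ∑ j, z j}

/-- The Gilmore-Gomory configuration LP value. -/
noncomputable def LP (I : Instance) : ℝ := sInf (lpValues I)

theorem lp_nonempty (I : Instance) : (lpValues I).Nonempty := by
  refine ⟨_, I.n, fun j σ => if I.a j = σ then 1 else 0, fun _ => 1, ?_, ?_, ?_, rfl⟩
  · intro j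
    unfold IsConfig
    have : ∑ σ ∈ sizes I, σ * (((if I.a j = σ then 1 else 0 : ℕ)) : ℚ) = I.a j := by
      rw [Finset.sum_eq_single (I.a j)]
      · simp
      · intro b _ hb
        simp [Ne.symm hb]
      · intro h
        exact absurd (mem_image_of_mem _ (mem_univ j)) h
    show ∑ σ ∈ sizes I, σ * (((if I.a j = σ then 1 else 0 : ℕ)) : ℚ) ≤ 1
    rw [this]
    exact I.le_one j
  · intro j; exact zero_le_one
  · intro σ _
    unfold mult
    rw [Finset.card_filter]
    push_cast
    simp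

theorem weak_dual (I : Instance) (w : ℚ → ℝ) (hw : ∀ x, 0 ≤ w x)
    (hc : ∀ c : ℚ → ℕ, IsConfig I c → ∑ σ ∈ sizes I, (c σ : ℝ) * w σ ≤ 1) :
    ∑ i, w (I.a i) ≤ LP I := by
  apply le_csInf (lp_nonempty I)
  rintro v ⟨k, c, z, hcfg, hz, hcov, rfl⟩
  have h1 : ∑ i, w (I.a i) = ∑ σ ∈ sizes I, (mult I σ : ℝ) * w σ := by
    unfold sizes mult
    rw [← Finset.sum_fiberwise_of_maps_to (s := univ) (t := univ.image I.a) (g := I.a)
      (fun i _ => mem_image_of_mem _ (mem_univ i))]
    refine Finset.sum_congr rfl fun σ _ => ?_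
    rw [Finset.sum_congr rfl (g := fun _ => w σ) (fun i hi => by rw [(mem_filter.mp hi).2])]
    rw [Finset.sum_const, nsmul_eq_mul]
  rw [h1]
  calc ∑ σ ∈ sizes I, (mult I σ : ℝ) * w σ
      ≤ ∑ σ ∈ sizes I, (∑ j, (c j σ : ℝ) * z j) * w σ :=
        Finset.sum_le_sum fun σ hσ => mul_le_mul_of_nonneg_right (hcov σ hσ) (hw σ)
    _ = ∑ j, z j * ∑ σ ∈ sizes I, (c j σ : ℝ) * w σ := by
        simp_rw [Finset.sum_mul, Finset.mul_sum]
        rw [Finset.sum_comm]
        refine Finset.sum_congr rfl fun j _ => Finset.sum_congr rfl fun σ _ => by ring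
    _ ≤ ∑ j, z j * 1 := Finset.sum_le_sum fun j _ =>
        mul_le_mul_of_nonneg_left (hc _ (hcfg j)) (hz j)
    _ = ∑ j, z j := by simp

theorem sizes_pos (I : Instance) {σ : ℚ} (h : σ ∈ sizes I) : 0 < σ := by
  unfold sizes at h
  obtain ⟨i, _, rfl⟩ := mem_image.mp h
  exact I.pos i

theorem two_thr (I : Instance) (ℓ s : ℚ) (α β : ℝ) (hα : 0 ≤ α) (hβ : 0 ≤ β)
    (h : ∀ A B : ℕ, ℓ * A + s * B ≤ 1 → α * A + β * B ≤ 1) :
    α * ((univ.filter (fun i => ℓ ≤ I.a i)).card : ℝ)
      + β * ((univ.filter (fun i => s ≤ I.a i ∧ I.a i < ℓ)).card : ℝ) ≤ LP I := by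
  have key := weak_dual I
    (fun x => (if ℓ ≤ x then α else 0) + (if s ≤ x ∧ x < ℓ then β else 0)) ?_ ?_
  · rw [Finset.sum_add_distrib, ← Finset.sum_filter, ← Finset.sum_filter] at key
    simp only [Finset.sum_const, nsmul_eq_mul] at key
    linarith
  · intro x
    have h1 : (0:ℝ) ≤ (if ℓ ≤ x then α else 0) := by split_ifs <;> linarith
    have h2 : (0:ℝ) ≤ (if s ≤ x ∧ x < ℓ then β else 0) := by split_ifs <;> linarith
    exact add_nonneg h1 h2
  · intro c hc
    have h1 : ℓ * ((∑ σ ∈ (sizes I).filter (fun σ => ℓ ≤ σ), c σ : ℕ) : ℚ)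
        + s * ((∑ σ ∈ (sizes I).filter (fun σ => s ≤ σ ∧ σ < ℓ), c σ : ℕ) : ℚ) ≤ 1 := by
      refine le_trans ?_ hc
      push_cast
      rw [Finset.mul_sum, Finset.mul_sum, Finset.sum_filter, Finset.sum_filter,
        ← Finset.sum_add_distrib]
      refine Finset.sum_le_sum fun σ hσ => ?_
      have hσ0 : 0 < σ := sizes_pos I hσ
      have hc0 : (0:ℚ) ≤ c σ := Nat.cast_nonneg _
      split_ifs with h1 h2 h2
      · exact absurd h2.2 (not_lt.mpr h1)
      · rw [add_zero]; exact mul_le_mul_of_nonneg_right h1 hc0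
      · rw [zero_add]; exact mul_le_mul_of_nonneg_right h2.1 hc0
      · rw [add_zero]; positivity
    have h2 := h _ _ h1
    refine le_trans (le_of_eq ?_) h2
    push_cast
    rw [Finset.mul_sum, Finset.mul_sum, Finset.sum_filter, Finset.sum_filter,
      ← Finset.sum_add_distrib]
    refine Finset.sum_congr rfl fun σ _ => ?_
    split_ifs <;> ring

/-- total size is at most the LP value -/
theorem total_le (I : Instance) : ((∑ i, I.a i : ℚ) : ℝ) ≤ LP I := by
  have key := weak_dual I (fun x => |(x : ℝ)|) (fun x => abs_nonneg _) ?_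
  · refine le_trans (le_of_eq ?_) key
    push_cast
    refine Finset.sum_congr rfl fun i _ => ?_
    rw [abs_of_pos]
    exact_mod_cast I.pos i
  · intro c hc
    unfold IsConfig at hc
    have : ((∑ σ ∈ sizes I, σ * (c σ : ℚ) : ℚ) : ℝ) ≤ 1 := by exact_mod_cast hc
    refine le_trans (le_of_eq ?_) this
    push_cast
    refine Finset.sum_congr rfl fun σ hσ => ?_
    rw [abs_of_pos]
    · ring
    · exact_mod_cast sizes_pos I hσ

end Vale.P302
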