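import Vale.Agent.P302.Final

namespace Vale.P302

open Finset

theorem cond (I : Instance) (m : ℕ) (hm : 1 ≤ m) (hLP : LP I ≤ m)
    (hcount : (univ.filter (fun i => 1 / (m:ℚ) < I.a i ∧ I.a i ≤ 1/2)).card
      + 2 * (univ.filter (fun i => 1 / (m:ℚ) < I.a i ∧ 1/2 < I.a i)).card ≤ 2 * (m + 1)) :
    OPT I ≤ m + 1 := by
  apply opt_le
  apply Pk.packs
  apply all_pk (m+1) (by omega)
  intro T i hi hmin hlt
  have h1 : ((∑ j ∈ T, I.a j : ℚ) : ℝ) ≤ m := le_trans (sum_le_LP I T) hLP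
  have h1' : ∑ j ∈ T, I.a j ≤ m := by exact_mod_cast h1
  have hm0 : (0:ℚ) < m := by exact_mod_cast hm
  have hs : 1 / (m:ℚ) < I.a i := by
    rw [div_lt_iff₀ hm0]
    push_cast at hlt
    nlinarith
  set L := T.filter (fun j => 1/2 < I.a j) with hL
  set S := T.filter (fun j => ¬ 1/2 < I.a j) with hS
  have hLS : L ∪ S = T := filter_union_filter_not_eq _ _
  have hSh : ∀ j ∈ S, I.a j ≤ 1/2 := fun j hj => not_lt.mp (mem_filter.mp hj).2
  have cS : S ⊆ univ.filter (fun i => 1 / (m:ℚ) < I.a i ∧ I.a i ≤ 1/2) := fun j hj =>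
    mem_filter.mpr ⟨mem_univ j, lt_of_lt_of_le hs (hmin j (mem_filter.mp hj).1), hSh j hj⟩
  have cL : L ⊆ univ.filter (fun i => 1 / (m:ℚ) < I.a i ∧ 1/2 < I.a i) := fun j hj =>
    mem_filter.mpr ⟨mem_univ j, lt_of_lt_of_le hs (hmin j (mem_filter.mp hj).1),
      (mem_filter.mp hj).2⟩
  have d1 := card_le_card cS
  have d2 := card_le_card cL
  have h2 : Pk I L L.card := by
    have := Pk.singles (I := I) L (Pk.empty I 0)
    simpa using this
  have h3 := Pk.pairs ((S.card + 1)/2) S (by omega) hSh h2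
  rw [hLS] at h3
  exact h3.mono (by omega)

end Vale.P302
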