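import Vale.Agent.P302.Pack

namespace Vale.P302

open Finset

theorem sum_le_LP (I : Instance) (T : Finset (Fin I.n)) : ((∑ i ∈ T, I.a i : ℚ) : ℝ) ≤ LP I := by
  refine le_trans ?_ (total_le I)
  have : ∑ i ∈ T, I.a i ≤ ∑ i, I.a i :=
    Finset.sum_le_sum_of_subset_of_nonneg (subset_univ T) (fun i _ _ => (I.pos i).le)
  exact_mod_cast this

/-- items larger than one half -/
theorem card_large (I : Instance) (T : Finset (Fin I.n)) (ℓ : ℚ) (hℓ : 1/2 < ℓ)
    (hT : ∀ j ∈ T, ℓ ≤ I.a j) : (T.card : ℝ) ≤ LP I := by
  have h := two_thr I ℓ 0 1 0 zero_le_one le_rfl (by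
    intro A B h
    have h1 : A ≤ 1 := by
      by_contra hA
      push Not at hA
      have h2 : (2:ℚ) ≤ A := by exact_mod_cast hA
      nlinarith
    have h2 : (A:ℝ) ≤ 1 := by exact_mod_cast h1
    linarith)
  have h2 : T ⊆ univ.filter (fun i => ℓ ≤ I.a i) := fun j hj =>
    mem_filter.mpr ⟨mem_univ j, hT j hj⟩
  have h3 : (T.card : ℝ) ≤ ((univ.filter (fun i => ℓ ≤ I.a i)).card : ℝ) := by
    exact_mod_cast card_le_card h2
  linarith

theorem card_third (I : Instance) (T : Finset (Fin I.n)) (s : ℚ) (hs : 1/3 < s)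
    (hT : ∀ j ∈ T, s ≤ I.a j) : (T.card : ℝ) ≤ 2 * LP I := by
  have h := two_thr I 2 s 0 (1/2) le_rfl (by norm_num) (by
    intro A B h
    have hA : (0:ℚ) ≤ A := Nat.cast_nonneg A
    have h1 : B ≤ 2 := by
      by_contra hB
      push Not at hB
      have h2 : (3:ℚ) ≤ B := by exact_mod_cast hB
      nlinarith
    have h2 : (B:ℝ) ≤ 2 := by exact_mod_cast h1
    linarith)
  have h2 : T ⊆ univ.filter (fun i => s ≤ I.a i ∧ I.a i < 2) := fun j hj =>
    mem_filter.mpr ⟨mem_univ j, hT j hj, lt_of_le_of_lt (I.le_one j) (by norm_num)⟩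
  have h3 : (T.card : ℝ) ≤ ((univ.filter (fun i => s ≤ I.a i ∧ I.a i < 2)).card : ℝ) := by
    exact_mod_cast card_le_card h2
  linarith

theorem pack_four (I : Instance) (hLP : LP I ≤ 3) : Packs I 4 := by
  apply Pk.packs
  apply all_pk 4 (by norm_num)
  intro T i hi hmin hlt
  have h1 : ((∑ j ∈ T, I.a j : ℚ) : ℝ) ≤ 3 := le_trans (sum_le_LP I T) hLP
  have h1' : ∑ j ∈ T, I.a j ≤ 3 := by exact_mod_cast h1
  have hs : 1/3 < I.a i := by
    push_cast at hlt
    linarith
  have hcard : T.card ≤ 6 := by
    have := card_third I T (I.a i) hs hmin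
    have h2 : (T.card : ℝ) ≤ 6 := by linarith
    exact_mod_cast h2
  set L := T.filter (fun j => 1/2 < I.a j) with hL
  set S := T.filter (fun j => ¬ 1/2 < I.a j) with hS
  have hLS : L ∪ S = T := filter_union_filter_not_eq _ _
  have hcLS : L.card + S.card = T.card := card_filter_add_card_filter_not _
  have hSh : ∀ j ∈ S, I.a j ≤ 1/2 := fun j hj => not_lt.mp (mem_filter.mp hj).2
  have hLcard : L.card ≤ 3 := by
    rcases L.eq_empty_or_nonempty with h | h
    · rw [h]; simp
    · obtain ⟨l, hl, hlmin⟩ := L.exists_min_image I.a h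
      have := card_large I L (I.a l) (mem_filter.mp hl).2 hlmin
      have h2 : (L.card : ℝ) ≤ 3 := by linarith
      exact_mod_cast h2
  by_cases hcase : L.card + (S.card + 1) / 2 ≤ 4
  · have h2 : Pk I L L.card := by
      have := Pk.singles (I := I) L (Pk.empty I 0)
      simpa using this
    have h3 := Pk.pairs ((S.card + 1)/2) S (by omega) hSh h2
    rw [hLS] at h3
    exact h3.mono hcase
  · have hL3 : L.card = 3 := by omega
    have hS3 : S.card = 3 := by omega
    obtain ⟨l, hl, hlmin⟩ := L.exists_min_image I.a (card_pos.mp (by omega))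
    obtain ⟨s, hs', hsmin⟩ := S.exists_min_image I.a (card_pos.mp (by omega))
    have hl2 : 1/2 < I.a l := (mem_filter.mp hl).2
    have hs3 : 1/3 < I.a s := lt_of_lt_of_le hs (hmin s (mem_filter.mp hs').1)
    by_cases hfit : I.a l + I.a s ≤ 1
    · have hne : l ≠ s := by
        rintro rfl
        exact absurd hl2 (not_lt.mpr (hSh l hs'))
      have b1 : Pk I (∅ ∪ {l, s}) (0 + 1) := (Pk.empty I 0).add_bin (by
        rw [sum_pair hne]; exact hfit)
      have b2 := Pk.singles (L.erase l) b1
      have b3 := Pk.pairs 1 (S.erase s) (by rw [card_erase_of_mem hs', hS3])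
        (fun j hj => hSh j (mem_of_mem_erase hj)) b2
      have h4 : ∅ ∪ {l, s} ∪ L.erase l ∪ S.erase s = T := by
        rw [← hLS]
        ext x
        simp only [mem_union, mem_insert, mem_singleton, mem_erase, notMem_empty, false_or]
        constructor
        · rintro (((rfl | rfl) | h) | h)
          · exact Or.inl hl
          · exact Or.inr hs'
          · exact Or.inl h.2
          · exact Or.inr h.2
        · rintro (h | h)
          · by_cases hx : x = l
            · exact Or.inl (Or.inl (Or.inl hx))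
            · exact Or.inl (Or.inr ⟨hx, h⟩)
          · by_cases hx : x = s
            · exact Or.inl (Or.inl (Or.inr hx))
            · exact Or.inr ⟨hx, h⟩
      rw [h4] at b3
      apply b3.mono
      rw [card_erase_of_mem hl, hL3]
    · exfalso
      push Not at hfit
      have h := two_thr I (I.a l) (I.a s) 1 (1/2) zero_le_one (by norm_num) (by
        intro A B h
        have hB0 : (0:ℚ) ≤ B := Nat.cast_nonneg B
        rcases Nat.lt_or_ge A 1 with hA | hA
        · have hA0 : A = 0 := by omega
          subst hA0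
          have hB : B ≤ 2 := by
            by_contra hB
            push Not at hB
            have h2 : (3:ℚ) ≤ B := by exact_mod_cast hB
            push_cast at h
            nlinarith
          have h2 : (B:ℝ) ≤ 2 := by exact_mod_cast hB
          push_cast
          linarith
        · have hA1 : A = 1 := by
            by_contra hA1
            have h2 : (2:ℚ) ≤ A := by
              have : 2 ≤ A := by omega
              exact_mod_cast this
            nlinarith
          subst hA1
          have hB : B = 0 := by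
            by_contra hB
            have h2 : (1:ℚ) ≤ B := by
              have : 1 ≤ B := by omega
              exact_mod_cast this
            push_cast at h
            nlinarith
          subst hB
          push_cast
          norm_num)
      have c1 : L ⊆ univ.filter (fun j => I.a l ≤ I.a j) := fun j hj =>
        mem_filter.mpr ⟨mem_univ j, hlmin j hj⟩
      have c2 : S ⊆ univ.filter (fun j => I.a s ≤ I.a j ∧ I.a j < I.a l) := fun j hj =>
        mem_filter.mpr ⟨mem_univ j, hsmin j hj, lt_of_le_of_lt (hSh j hj) hl2⟩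
      have d1 : (3:ℝ) ≤ ((univ.filter (fun j => I.a l ≤ I.a j)).card : ℝ) := by
        have := card_le_card c1
        rw [hL3] at this
        exact_mod_cast this
      have d2 : (3:ℝ) ≤ ((univ.filter (fun j => I.a s ≤ I.a j ∧ I.a j < I.a l)).card : ℝ) := by
        have := card_le_card c2
        rw [hS3] at this
        exact_mod_cast this
      linarith

theorem pack_three (I : Instance) (hLP : LP I ≤ 2) : Packs I 3 := by
  apply Pk.packs
  apply all_pk 3 (by norm_num)
  intro T i hi hmin hlt
  have h1 : ((∑ j ∈ T, I.a j : ℚ) : ℝ) ≤ 2 := le_trans (sum_le_LP I T) hLP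
  have h1' : ∑ j ∈ T, I.a j ≤ 2 := by exact_mod_cast h1
  have hs : 1/2 < I.a i := by
    push_cast at hlt
    linarith
  have hcard : T.card ≤ 3 := by
    have := card_large I T (I.a i) hs hmin
    have h2 : (T.card : ℝ) ≤ 3 := by linarith
    exact_mod_cast h2
  have h2 : Pk I T T.card := by
    have := Pk.singles (I := I) T (Pk.empty I 0)
    simpa using this
  exact h2.mono hcard

theorem pack_one (I : Instance) (hLP : LP I ≤ 1) : Packs I 1 := by
  apply Pk.packs
  have h1 : ((∑ j, I.a j : ℚ) : ℝ) ≤ 1 := le_trans (sum_le_LP I univ) hLP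
  have h1' : ∑ j, I.a j ≤ 1 := by exact_mod_cast h1
  have := (Pk.empty I 0).add_bin (T' := univ) h1'
  simpa using this

theorem pack_zero (I : Instance) (hLP : LP I ≤ 0) : Packs I 0 := by
  apply Pk.packs
  have h1 : ((∑ j, I.a j : ℚ) : ℝ) ≤ 0 := le_trans (sum_le_LP I univ) hLP
  have h1' : ∑ j, I.a j ≤ 0 := by exact_mod_cast h1
  have he : (univ : Finset (Fin I.n)) = ∅ := by
    by_contra hne
    have : 0 < ∑ j, I.a j := Finset.sum_pos (fun j _ => I.pos j) (nonempty_iff_ne_empty.mpr hne)
    linarith
  rw [he]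
  exact Pk.empty I 0

theorem opt_le {I : Instance} {m : ℕ} (h : Packs I m) : OPT I ≤ m := Nat.sInf_le h

theorem mirup_small (I : Instance) (h : OPT I ≤ 5) : (OPT I : ℤ) ≤ ⌈LP I⌉ + 1 := by
  have h0 : 0 ≤ LP I := by
    have := sum_le_LP I ∅
    simpa using this
  have hc0 : 0 ≤ ⌈LP I⌉ := Int.ceil_nonneg h0
  rcases lt_or_ge (3:ℤ) ⌈LP I⌉ with h3 | h3
  · omega
  rcases lt_or_ge (2:ℤ) ⌈LP I⌉ with h2 | h2
  · have : LP I ≤ 3 := by
      have := Int.ceil_le.mp h3
      exact_mod_cast this
    have := opt_le (pack_four I this)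
    omega
  rcases lt_or_ge (1:ℤ) ⌈LP I⌉ with h1 | h1
  · have : LP I ≤ 2 := by
      have := Int.ceil_le.mp h2
      exact_mod_cast this
    have := opt_le (pack_three I this)
    omega
  · have : LP I ≤ 1 := by
      have := Int.ceil_le.mp h1
      exact_mod_cast this
    have := opt_le (pack_one I this)
    omega

end Vale.P302
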