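import Vale.Agent.P302.Cond

namespace Vale.P302

open Finset

theorem Pk.groups {I : Instance} (q : ℕ) (hq : 1 ≤ q) : ∀ (k : ℕ) (S : Finset (Fin I.n)),
    S.card ≤ q * k → (∀ j ∈ S, I.a j ≤ 1/(q:ℚ)) → ∀ {T : Finset (Fin I.n)} {m : ℕ},
    Pk I T m → Pk I (T ∪ S) (m + k) := by
  intro k
  induction k with
  | zero =>
    intro S hS _ T m h
    have : S = ∅ := Finset.card_eq_zero.mp (by omega)
    subst this
    simpa using h
  | succ k ih =>
    intro S hS hh T m h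
    obtain ⟨S', hS', hc'⟩ := Finset.exists_subset_card_eq (s := S) (n := min q S.card)
      (min_le_right _ _)
    have hq0 : (0:ℚ) < q := by exact_mod_cast hq
    have hsum : ∑ i ∈ S', I.a i ≤ 1 := by
      have h1 : ∑ i ∈ S', I.a i ≤ ∑ i ∈ S', (1/(q:ℚ)) :=
        Finset.sum_le_sum fun i hi => hh i (hS' hi)
      rw [Finset.sum_const, nsmul_eq_mul] at h1
      have h2 : (S'.card : ℚ) ≤ q := by
        exact_mod_cast (hc' ▸ min_le_left q S.card)
      have h3 : (S'.card : ℚ) * (1/(q:ℚ)) ≤ q * (1/(q:ℚ)) :=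
        mul_le_mul_of_nonneg_right h2 (by positivity)
      have h4 : (q:ℚ) * (1/(q:ℚ)) = 1 := by field_simp
      linarith
    have h1 := h.add_bin hsum
    have hcard : (S \ S').card ≤ q * k := by
      rw [Finset.card_sdiff_of_subset hS', hc']
      have : q * (k+1) = q * k + q := by ring
      omega
    have h2 := ih (S \ S') hcard (fun j hj => hh j (mem_sdiff.mp hj).1) h1
    have h3 : T ∪ S' ∪ (S \ S') = T ∪ S := by
      rw [union_assoc, union_sdiff_of_subset hS']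
    rw [h3] at h2
    have h4 : m + 1 + k = m + (k + 1) := by omega
    rw [h4] at h2
    exact h2

theorem Pk.subset {I : Instance} {T T' : Finset (Fin I.n)} {m : ℕ} (h : Pk I T m)
    (hT : T' ⊆ T) : Pk I T' m := by
  obtain ⟨f, h1, h2⟩ := h
  exact ⟨f, fun i hi => h1 i (hT hi), fun b => le_trans
    (Finset.sum_le_sum_of_subset_of_nonneg (filter_subset_filter _ hT)
      (fun i _ _ => (I.pos i).le)) (h2 b)⟩

/-- items with size in `(1/(q+1), 1/q]` -/
def cls (I : Instance) (q : ℕ) : Finset (Fin I.n) :=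
  univ.filter (fun i => 1 / ((q:ℚ) + 1) < I.a i ∧ I.a i ≤ 1 / (q:ℚ))

theorem harm_pk (I : Instance) (n : ℕ) :
    Pk I ((Ico 1 (n+1)).biUnion (cls I)) (∑ q ∈ Ico 1 (n+1), ((cls I q).card + q - 1) / q) := by
  induction n with
  | zero => simpa using Pk.empty I 0
  | succ n ih =>
    rw [Finset.sum_Ico_succ_top (by omega)]
    have h1 := Pk.groups (n+1) (by omega) (((cls I (n+1)).card + (n+1) - 1)/(n+1)) (cls I (n+1))
      (by
        have := Nat.div_add_mod ((cls I (n+1)).card + (n+1) - 1) (n+1)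
        have := Nat.mod_lt ((cls I (n+1)).card + (n+1) - 1) (show 0 < n+1 by omega)
        omega) (fun j hj => (mem_filter.mp hj).2.2) ih
    refine h1.subset ?_
    intro x hx
    obtain ⟨q, hq, hxq⟩ := mem_biUnion.mp hx
    rcases Nat.lt_or_ge q (n+1) with h | h
    · exact mem_union_left _ (mem_biUnion.mpr ⟨q, mem_Ico.mpr ⟨(mem_Ico.mp hq).1, h⟩, hxq⟩)
    · have : q = n+1 := by have := (mem_Ico.mp hq).2; omega
      subst this
      exact mem_union_right _ hxq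

theorem harm (I : Instance) (m : ℕ) (hm : 1 ≤ m) (hLP : LP I ≤ m)
    (hc : ∑ q ∈ Ico 1 m, ((cls I q).card + q - 1) / q ≤ m + 1) : OPT I ≤ m + 1 := by
  apply opt_le
  apply Pk.packs
  apply all_pk (m+1) (by omega)
  intro T i hi hmin hlt
  have h1 : ((∑ j ∈ T, I.a j : ℚ) : ℝ) ≤ m := le_trans (sum_le_LP I T) hLP
  have h1' : ∑ j ∈ T, I.a j ≤ m := by exact_mod_cast h1
  have hm0 : (0:ℚ) < m := by exact_mod_cast hm
  have hs : 1 / (m:ℚ) < I.a i := by
    rw [div_lt_iff₀ hm0]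
    push_cast at hlt
    nlinarith
  obtain ⟨n, rfl⟩ : ∃ n, m = n + 1 := ⟨m - 1, by omega⟩
  refine ((harm_pk I n).subset ?_).mono hc
  intro j hj
  have hp := I.pos j
  have hj1 : 1 / ((n+1 : ℕ):ℚ) < I.a j := lt_of_lt_of_le hs (hmin j hj)
  have f1 : ((⌊1 / I.a j⌋₊ : ℕ) : ℚ) ≤ 1 / I.a j := Nat.floor_le (by positivity)
  have f2 : 1 / I.a j < (⌊1 / I.a j⌋₊ : ℚ) + 1 := Nat.lt_floor_add_one _
  have f3 : 1 ≤ ⌊1 / I.a j⌋₊ := by
    apply Nat.le_floor
    rw [Nat.cast_one, le_div_iff₀ hp, one_mul]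
    exact I.le_one j
  have f3' : (1:ℚ) ≤ ⌊1 / I.a j⌋₊ := by exact_mod_cast f3
  have f4 : 1 / I.a j < ((n+1 : ℕ):ℚ) := by
    rw [div_lt_iff₀ hp]
    rw [div_lt_iff₀ hm0] at hj1
    linarith
  have f5 : ⌊1 / I.a j⌋₊ < n + 1 := by
    have : ((⌊1 / I.a j⌋₊ : ℕ) : ℚ) < ((n+1 : ℕ):ℚ) := lt_of_le_of_lt f1 f4
    exact_mod_cast this
  refine mem_biUnion.mpr ⟨⌊1 / I.a j⌋₊, mem_Ico.mpr ⟨f3, f5⟩, ?_⟩
  refine mem_filter.mpr ⟨mem_univ j, ?_, ?_⟩
  · rw [div_lt_iff₀ (by linarith)]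
    rw [div_lt_iff₀ hp] at f2
    linarith
  · rw [le_div_iff₀ (by linarith)]
    rw [le_div_iff₀ hp] at f1
    linarith

end Vale.P302
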