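import Vale.Agent.P302.Basic

namespace Vale.P302

open Finset

/-- packings of a subset of the items -/
def Pk (I : Instance) (T : Finset (Fin I.n)) (m : ℕ) : Prop :=
  ∃ f : Fin I.n → ℕ, (∀ i ∈ T, f i < m) ∧
    ∀ b, ∑ i ∈ T.filter (fun i => f i = b), I.a i ≤ 1

theorem Pk.packs {I : Instance} {m : ℕ} (h : Pk I univ m) : Packs I m := by
  obtain ⟨f, h1, h2⟩ := h
  refine ⟨fun i => ⟨f i, h1 i (mem_univ i)⟩, fun b => ?_⟩
  have h3 : (univ.filter (fun i => (⟨f i, h1 i (mem_univ i)⟩ : Fin m) = b))
      = univ.filter (fun i => f i = (b : ℕ)) := by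
    ext i
    simp [Fin.ext_iff]
  rw [h3]
  exact h2 b

theorem Pk.mono {I : Instance} {T : Finset (Fin I.n)} {m m' : ℕ} (h : Pk I T m)
    (hm : m ≤ m') : Pk I T m' := by
  obtain ⟨f, h1, h2⟩ := h
  exact ⟨f, fun i hi => lt_of_lt_of_le (h1 i hi) hm, h2⟩

theorem Pk.add_bin {I : Instance} {T T' : Finset (Fin I.n)} {m : ℕ} (h : Pk I T m)
    (hT' : ∑ i ∈ T', I.a i ≤ 1) : Pk I (T ∪ T') (m+1) := by
  obtain ⟨f, h1, h2⟩ := h
  refine ⟨fun i => if i ∈ T' then m else f i, ?_, ?_⟩
  · intro i hi
    dsimp only
    split_ifs with hi'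
    · exact Nat.lt_succ_self m
    · rcases mem_union.mp hi with h3 | h3
      · exact lt_of_lt_of_le (h1 i h3) (Nat.le_succ m)
      · exact absurd h3 hi'
  · intro b
    by_cases hb : b = m
    · subst hb
      have : (T ∪ T').filter (fun i => (if i ∈ T' then b else f i) = b) ⊆ T' := by
        intro i hi
        obtain ⟨h3, h4⟩ := mem_filter.mp hi
        by_contra h5
        rw [if_neg h5] at h4
        rcases mem_union.mp h3 with h6 | h6
        · exact absurd h4 (ne_of_lt (h1 i h6))
        · exact h5 h6
      exact le_trans (Finset.sum_le_sum_of_subset_of_nonneg this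
        (fun i _ _ => (I.pos i).le)) hT'
    · have : (T ∪ T').filter (fun i => (if i ∈ T' then m else f i) = b)
          ⊆ T.filter (fun i => f i = b) := by
        intro i hi
        obtain ⟨h3, h4⟩ := mem_filter.mp hi
        by_cases h5 : i ∈ T'
        · rw [if_pos h5] at h4; exact absurd h4.symm hb
        · rw [if_neg h5] at h4
          rcases mem_union.mp h3 with h6 | h6
          · exact mem_filter.mpr ⟨h6, h4⟩
          · exact absurd h6 h5
      exact le_trans (Finset.sum_le_sum_of_subset_of_nonneg this
        (fun i _ _ => (I.pos i).le)) (h2 b)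

theorem Pk.empty (I : Instance) (m : ℕ) : Pk I ∅ m := ⟨fun _ => 0, by simp, by simp⟩

theorem Pk.singles {I : Instance} (L : Finset (Fin I.n)) : ∀ {T : Finset (Fin I.n)} {m : ℕ},
    Pk I T m → Pk I (T ∪ L) (m + L.card) := by
  induction L using Finset.induction_on with
  | empty => intro T m h; simpa using h
  | insert i L hi ih =>
    intro T m h
    have h1 := (ih h).add_bin (T' := {i}) (by simpa using I.le_one i)
    have h2 : T ∪ L ∪ {i} = T ∪ insert i L := by
      ext x; simp only [mem_union, mem_singleton, mem_insert]; tauto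
    rw [h2] at h1
    rw [card_insert_of_notMem hi]
    exact h1

theorem Pk.pairs {I : Instance} : ∀ (k : ℕ) (S : Finset (Fin I.n)), S.card ≤ 2 * k →
    (∀ j ∈ S, I.a j ≤ 1/2) → ∀ {T : Finset (Fin I.n)} {m : ℕ},
    Pk I T m → Pk I (T ∪ S) (m + k) := by
  intro k
  induction k with
  | zero =>
    intro S hS _ T m h
    have : S = ∅ := Finset.card_eq_zero.mp (by omega)
    subst this
    simpa using h
  | succ k ih =>
    intro S hS hh T m h
    obtain ⟨S', hS', hc'⟩ := Finset.exists_subset_card_eq (s := S) (n := min 2 S.card)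
      (min_le_right _ _)
    have hsum : ∑ i ∈ S', I.a i ≤ 1 := by
      have h1 : ∑ i ∈ S', I.a i ≤ ∑ i ∈ S', (1/2 : ℚ) :=
        Finset.sum_le_sum fun i hi => hh i (hS' hi)
      rw [Finset.sum_const, nsmul_eq_mul] at h1
      have h2 : (S'.card : ℚ) ≤ 2 := by
        exact_mod_cast (hc' ▸ min_le_left 2 S.card)
      linarith
    have h1 := h.add_bin hsum
    have hcard : (S \ S').card ≤ 2 * k := by
      rw [Finset.card_sdiff_of_subset hS', hc']
      omega
    have h2 := ih (S \ S') hcard (fun j hj => hh j (mem_sdiff.mp hj).1) h1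
    have h3 : T ∪ S' ∪ (S \ S') = T ∪ S := by
      ext x
      simp only [mem_union, mem_sdiff]
      constructor
      · rintro ((h | h) | h)
        · exact Or.inl h
        · exact Or.inr (hS' h)
        · exact Or.inr h.1
      · rintro (h | h)
        · exact Or.inl (Or.inl h)
        · by_cases h4 : x ∈ S'
          · exact Or.inl (Or.inr h4)
          · exact Or.inr ⟨h, h4⟩
    rw [h3] at h2
    have h4 : m + 1 + k = m + (k + 1) := by omega
    rw [h4] at h2
    exact h2

theorem Pk.insert_or {I : Instance} {T : Finset (Fin I.n)} {m : ℕ} (hm : 0 < m)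
    (h : Pk I T m) {i : Fin I.n} (hi : i ∉ T) :
    Pk I (insert i T) m ∨ (m : ℚ) * (1 - I.a i) + I.a i < ∑ j ∈ insert i T, I.a j := by
  obtain ⟨f, h1, h2⟩ := h
  by_cases hex : ∃ b < m, ∑ j ∈ T.filter (fun j => f j = b), I.a j + I.a i ≤ 1
  · left
    obtain ⟨b, hb, hs⟩ := hex
    refine ⟨Function.update f i b, ?_, ?_⟩
    · intro j hj
      rcases mem_insert.mp hj with h3 | h3
      · subst h3; simpa using hb
      · have : j ≠ i := fun h => hi (h ▸ h3)
        rw [Function.update_of_ne this]
        exact h1 j h3
    · intro b'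
      by_cases hb' : b' = b
      · subst hb'
        have : (insert i T).filter (fun j => Function.update f i b' j = b')
            ⊆ insert i (T.filter (fun j => f j = b')) := by
          intro j hj
          obtain ⟨h3, h4⟩ := mem_filter.mp hj
          by_cases hji : j = i
          · exact mem_insert.mpr (Or.inl hji)
          · rw [Function.update_of_ne hji] at h4
            exact mem_insert.mpr (Or.inr (mem_filter.mpr
              ⟨(mem_insert.mp h3).resolve_left hji, h4⟩))
        refine le_trans (Finset.sum_le_sum_of_subset_of_nonneg this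
          (fun i _ _ => (I.pos i).le)) ?_
        rw [Finset.sum_insert (fun h => hi (mem_filter.mp h).1)]
        linarith
      · have : (insert i T).filter (fun j => Function.update f i b j = b')
            ⊆ T.filter (fun j => f j = b') := by
          intro j hj
          obtain ⟨h3, h4⟩ := mem_filter.mp hj
          by_cases hji : j = i
          · subst hji
            rw [Function.update_self] at h4
            exact absurd h4.symm hb'
          · rw [Function.update_of_ne hji] at h4
            exact mem_filter.mpr ⟨(mem_insert.mp h3).resolve_left hji, h4⟩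
        exact le_trans (Finset.sum_le_sum_of_subset_of_nonneg this
          (fun i _ _ => (I.pos i).le)) (h2 b')
  · right
    push Not at hex
    rw [Finset.sum_insert hi]
    have h3 : ∑ j ∈ T, I.a j = ∑ b ∈ range m, ∑ j ∈ T.filter (fun j => f j = b), I.a j :=
      (Finset.sum_fiberwise_of_maps_to (fun j hj => mem_range.mpr (h1 j hj)) _).symm
    have h4 : ∑ b ∈ range m, (1 - I.a i)
        < ∑ b ∈ range m, ∑ j ∈ T.filter (fun j => f j = b), I.a j := by
      apply Finset.sum_lt_sum_of_nonempty
      · exact ⟨0, mem_range.mpr hm⟩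
      · intro b hb
        have := hex b (mem_range.mp hb)
        linarith
    rw [Finset.sum_const, card_range, nsmul_eq_mul, ← h3] at h4
    linarith

theorem all_pk {I : Instance} (m : ℕ) (hm : 0 < m)
    (H : ∀ T : Finset (Fin I.n), ∀ i ∈ T, (∀ j ∈ T, I.a i ≤ I.a j) →
      (m:ℚ) * (1 - I.a i) + I.a i < ∑ j ∈ T, I.a j → Pk I T m) :
    ∀ T, Pk I T m := by
  intro T
  induction' hT : T.card with k ih generalizing T
  · have : T = ∅ := Finset.card_eq_zero.mp hT
    subst this
    exact Pk.empty I m
  · have hne : T.Nonempty := by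
      rw [← Finset.card_pos]; omega
    obtain ⟨i, hi, hmin⟩ := T.exists_min_image I.a hne
    have h1 : Pk I (T.erase i) m := ih _ (by rw [card_erase_of_mem hi, hT]; rfl)
    rcases h1.insert_or hm (notMem_erase i T) with h2 | h2
    · rwa [insert_erase hi] at h2
    · rw [insert_erase hi] at h2
      exact H T i hi hmin h2

end Vale.P302
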